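import Vale.Agent.P040.Normalise.Basic

/-!
# Straight ends at the first class
-/

open Set Filter Metric
open scoped Topology

noncomputable section

namespace Vale.Agent.P040

/-- The unit vector at `θ` turns. -/
def turn (θ : ℝ) : ℂ := Complex.exp (↑(2 * Real.pi * θ) * Complex.I)

/-- The direction of `z` in turns, in `[0, 1)`. -/
def turnsOf (z : ℂ) : ℝ := Int.fract (Complex.arg z / (2 * Real.pi))

theorem norm_turn (θ : ℝ) : ‖turn θ‖ = 1 := Complex.norm_exp_ofReal_mul_I _

theorem norm_mul_turn_turnsOf (z : ℂ) : (‖z‖ : ℂ) * turn (turnsOf z) = z := by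
  have h : turn (turnsOf z) = Complex.exp (Complex.arg z * Complex.I) := by
    rw [turn, turnsOf, Int.fract]
    rw [show ((2 * Real.pi * (Complex.arg z / (2 * Real.pi) - ⌊Complex.arg z / (2 * Real.pi)⌋) : ℝ) : ℂ)
        * Complex.I = Complex.arg z * Complex.I +
          ((-⌊Complex.arg z / (2 * Real.pi)⌋ : ℤ) : ℂ) * (2 * Real.pi * Complex.I) by
      have := Real.pi_ne_zero
      push_cast; field_simp; ring]
    rw [Complex.exp_add, Complex.exp_int_mul_two_pi_mul_I, mul_one]
  rw [h, Complex.norm_mul_exp_arg_mul_I]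

namespace RDrawing

variable {m n : ℕ}

/-- Every drawing has one with straight ends at the first class and no more multiple points. -/
theorem exists_radial (D : RDrawing m n) :
    ∃ D' : RDrawing m n, ∃ θ : Fin m → Fin n → ℝ, D'.crossings ≤ D.crossings ∧ D'.Radial θ := by
  classical
  set K : Fin m → Set ℂ := fun a => D.A '' {a}ᶜ ∪ range D.B ∪ multPts D.arc ∪
    ⋃ e : {e : Fin m × Fin n // e.1 ≠ a}, D.arc e.1.1 e.1.2 '' Icc 0 1 with hK
  have hinjA : ∀ a a', D.A a = D.A a' → a = a' := fun a a' h => by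
    simpa using D.inj (a₁ := Sum.inl a) (a₂ := Sum.inl a') h
  have hAB : ∀ a k, D.A a ≠ D.B k := fun a k h => by
    simpa using D.inj (a₁ := Sum.inl a) (a₂ := Sum.inr k) h
  have hAK : ∀ a, D.A a ∉ K a := by
    rintro a (((⟨a', ha', h⟩ | ⟨k, h⟩) | h) | h)
    · exact ha' (hinjA _ _ h)
    · exact hAB a k h.symm
    · exact D.not_multPts_A a h
    · obtain ⟨⟨⟨a', k⟩, he⟩, u, hu, h⟩ := mem_iUnion.1 h
      rcases hu.1.eq_or_lt with rfl | h0
      · exact he (hinjA _ _ ((D.src a' k).symm.trans h))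
      rcases hu.2.eq_or_lt with rfl | h1
      · exact hAB a k (h.symm.trans (D.tgt a' k))
      exact (D.avoid a' k u ⟨h0, h1⟩).1 ⟨a, h.symm⟩
  have hKc : ∀ a, IsClosed (K a) := fun a =>
    (((((finite_univ.subset (subset_univ _)).image D.A).union (finite_range _)).union D.fin).isClosed).union
      (isClosed_iUnion_of_finite fun e => D.isClosed_image _ _)
  obtain ⟨r, hr, hr0⟩ := ((eventually_all.2 fun a =>
    eventually_ball_disjoint (hKc a) (hAK a)).and self_mem_nhdsWithin).exists
  have hr0 : (0 : ℝ) < r := hr0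
  have hball : ∀ a z, dist z (D.A a) ≤ r → z ∉ K a := fun a z hz => hr a z (by linarith)
  have hsep : ∀ a a', a' ≠ a → 2 * r < dist (D.A a') (D.A a) := fun a a' h =>
    not_le.1 fun h' => hr a _ h' (Or.inl (Or.inl (Or.inl ⟨a', h, rfl⟩)))
  have hother : ∀ a a' k u, a' ≠ a → u ∈ Icc (0 : ℝ) 1 → r < dist (D.arc a' k u) (D.A a) :=
    fun a a' k u h hu => not_le.1 fun h' =>
      hball a _ h' (Or.inr (mem_iUnion.2 ⟨⟨(a', k), h⟩, mem_image_of_mem _ hu⟩))
  set hi : Fin m → Fin n → ℝ := fun a k => lastIn (D.arc a k) (D.A a) r with hhi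
  have key : ∀ a k, 0 < hi a k ∧ hi a k < 1 ∧ dist (D.arc a k (hi a k)) (D.A a) = r ∧
      ∀ u ∈ Icc (0 : ℝ) 1, hi a k < u → r < dist (D.arc a k u) (D.A a) := fun a k =>
    lastIn_spec (D.cont a k) (left_mem_Icc.2 zero_le_one) (by rw [D.src, dist_self]; exact hr0)
      (not_le.1 fun h' => hball a _ h' (Or.inl (Or.inl (Or.inr ⟨k, (D.tgt a k).symm⟩))))
  have hiI : ∀ a k, hi a k ∈ Ioo (0 : ℝ) 1 := fun a k => ⟨(key a k).1, (key a k).2.1⟩
  set θ : Fin m → Fin n → ℝ := fun a k => turnsOf (D.arc a k (hi a k) - D.A a) with hθ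
  have hq : ∀ a k, D.A a + (r : ℂ) * turn (θ a k) = D.arc a k (hi a k) := fun a k => by
    have h := norm_mul_turn_turnsOf (D.arc a k (hi a k) - D.A a)
    rw [← Complex.dist_eq, (key a k).2.2.1] at h
    rw [hθ, h]; ring
  have hθinj : ∀ a, Function.Injective (θ a) := fun a k l h => by_contra fun hne => by
    have he : D.arc a k (hi a k) = D.arc a l (hi a l) := by rw [← hq, ← hq, h]
    refine hball a _ (key a k).2.2.1.le (Or.inl (Or.inr (D.mem_multPts (q₁ := ((a, k), hi a k))
      (q₂ := ((a, l), hi a l)) ⟨hiI a k, rfl⟩ ⟨hiI a l, he.symm⟩ fun e => hne ?_)))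
    simp only [Prod.mk.injEq, true_and] at e
    exact e.1
  set arc : Fin m → Fin n → ℝ → ℂ := fun a k t =>
    if t ≤ 1 / 2 then D.A a + ↑(2 * r * t) * turn (θ a k)
    else D.arc a k (hi a k + (2 * t - 1) * (1 - hi a k)) with harc
  have hL : ∀ a k t, t ≤ 1 / 2 → arc a k t = D.A a + ↑(2 * r * t) * turn (θ a k) :=
    fun a k t h => if_pos h
  have hR : ∀ a k t, 1 / 2 < t → arc a k t = D.arc a k (hi a k + (2 * t - 1) * (1 - hi a k)) :=
    fun a k t h => if_neg h.not_ge
  have hLd : ∀ a k t, 0 ≤ t → t ≤ 1 / 2 → dist (arc a k t) (D.A a) = 2 * r * t := fun a k t h0 h => by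
    rw [hL a k t h, Complex.dist_eq, add_sub_cancel_left, norm_mul, norm_turn, mul_one,
      Complex.norm_real, Real.norm_of_nonneg (by positivity)]
  have hRI : ∀ a k t, 1 / 2 < t → t < 1 →
      hi a k < hi a k + (2 * t - 1) * (1 - hi a k) ∧
        hi a k + (2 * t - 1) * (1 - hi a k) ∈ Ioo (0 : ℝ) 1 := fun a k t h h1 => by
    have hw : 0 < (2 * t - 1) * (1 - hi a k) := mul_pos (by linarith) (by linarith [(hiI a k).2])
    have hw' : (2 * t - 1) * (1 - hi a k) < 1 - hi a k :=
      mul_lt_of_lt_one_left (by linarith [(hiI a k).2]) (by linarith)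
    exact ⟨by linarith, by linarith [(hiI a k).1], by linarith⟩
  -- outside the straight parts, the new edges stay out of all balls
  have hout : ∀ a a' k t, 1 / 2 < t → t < 1 → r < dist (arc a' k t) (D.A a) := fun a a' k t h h1 => by
    obtain ⟨hlt, hI⟩ := hRI a' k t h h1
    rw [hR a' k t h]
    by_cases ha : a' = a
    · subst ha; exact (key a' k).2.2.2 _ (Ioo_subset_Icc_self hI) hlt
    · exact hother a a' k _ ha (Ioo_subset_Icc_self hI)
  obtain ⟨D', hA, he, hsub⟩ := D.exists_of_embed arc (fun a k => by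
      have hu : Icc (0 : ℝ) 1 = Icc 0 (1 / 2) ∪ Icc (1 / 2) 1 := by
        rw [Icc_union_Icc_eq_Icc] <;> norm_num
      rw [hu]
      refine ContinuousOn.union_of_isClosed ?_ ?_ isClosed_Icc isClosed_Icc
      · exact (by fun_prop : Continuous fun t : ℝ =>
          D.A a + ↑(2 * r * t) * turn (θ a k)).continuousOn.congr fun t ht => hL a k t ht.2
      · refine ((D.cont a k).comp (by fun_prop : Continuous fun t : ℝ =>
          hi a k + (2 * t - 1) * (1 - hi a k)).continuousOn fun t ht => ?_).congr fun t ht => ?_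
        · have h0 : (0:ℝ) ≤ (2 * t - 1) * (1 - hi a k) :=
            mul_nonneg (by linarith [ht.1]) (by linarith [(hiI a k).2])
          have h1 : (2 * t - 1) * (1 - hi a k) ≤ 1 - hi a k :=
            mul_le_of_le_one_left (by linarith [(hiI a k).2]) (by linarith [ht.2])
          exact ⟨by linarith [(hiI a k).1], by linarith⟩
        · rcases ht.1.eq_or_lt with rfl | h
          · rw [hL a k _ le_rfl, show 2 * r * (1 / 2) = r by ring, hq a k]; norm_num
          · exact hR a k t h)
    (fun a k => by rw [hL a k 0 (by norm_num)]; simp)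
    (fun a k => by rw [hR a k 1 (by norm_num)]; norm_num; exact D.tgt a k)
    (fun a k t ht => by
      rcases le_or_gt t (1 / 2) with h | h
      · have hd : dist (arc a k t) (D.A a) ≤ r := by
          rw [hLd a k t ht.1.le h]; nlinarith
        refine ⟨?_, fun hh => hball a _ hd (Or.inl (Or.inl (Or.inr hh)))⟩
        rintro ⟨a', ha'⟩
        by_cases h' : a' = a
        · subst h'
          have := hLd a' k t ht.1.le h
          rw [← ha', dist_self] at this
          nlinarith [mul_pos hr0 ht.1]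
        · exact hball a _ hd (Or.inl (Or.inl (Or.inl ⟨a', h', ha'⟩)))
      · rw [hR a k t h]; exact D.avoid a k _ (hRI a k t h ht.2).2)
    fun p => by
      by_cases hb : ∃ a, dist p (D.A a) ≤ r
      · left
        obtain ⟨a, ha⟩ := hb
        have hin : ∀ q ∈ incid arc p, q.1.1 = a ∧ q.2 ≤ 1 / 2 := fun q hq => by
          have hle : q.2 ≤ 1 / 2 := not_lt.1 fun h => by
            have := hout a q.1.1 q.1.2 q.2 h hq.1.2
            rw [hq.2] at this; exact ha.not_gt this
          refine ⟨by_contra fun hne => ?_, hle⟩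
          have h1 := hLd q.1.1 q.1.2 q.2 hq.1.1.le hle
          rw [hq.2] at h1
          have h2 : 2 * r * q.2 ≤ r := by nlinarith [hq.1.1]
          have := hsep a q.1.1 hne
          have := dist_triangle_left (D.A q.1.1) (D.A a) p
          linarith
        rintro ⟨⟨a₁, k⟩, s⟩ h₁ ⟨⟨a₂, l⟩, t⟩ h₂
        obtain ⟨ha₁, hs⟩ := hin _ h₁
        obtain ⟨ha₂, ht⟩ := hin _ h₂
        simp only at ha₁ ha₂ hs ht
        subst ha₁ ha₂
        have e1 := hLd a₂ k s h₁.1.1.le hs
        have e2 := hLd a₂ l t h₂.1.1.le ht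
        rw [h₁.2] at e1
        rw [h₂.2] at e2
        have hst : s = t := mul_left_cancel₀ (mul_ne_zero two_ne_zero hr0.ne') (e1.symm.trans e2)
        subst hst
        have e := h₁.2.trans h₂.2.symm
        simp only at e
        rw [hL a₂ k s hs, hL a₂ l s hs, add_right_inj, mul_right_inj' (Complex.ofReal_ne_zero.2
          (mul_ne_zero (mul_ne_zero two_ne_zero hr0.ne') h₁.1.1.ne'))] at e
        have : θ a₂ k = θ a₂ l := by
          have hk := hq a₂ k
          rw [e, hq a₂ l] at hk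
          rw [hθ]; simp only [hk]
        rw [hθinj a₂ this]
      · right
        rw [not_exists] at hb
        have hgt : ∀ q ∈ incid arc p, 1 / 2 < q.2 := fun q hq => not_le.1 fun h => hb q.1.1 (by
          rw [← hq.2, hLd _ _ _ hq.1.1.le h]; nlinarith [hq.1.1])
        refine ⟨fun q => (q.1, hi q.1.1 q.1.2 + (2 * q.2 - 1) * (1 - hi q.1.1 q.1.2)),
          fun q hq => ⟨(hRI q.1.1 q.1.2 q.2 (hgt q hq) hq.1.2).2, ?_⟩, ?_⟩
        · rw [← hq.2, hR _ _ _ (hgt q hq)]
        · rintro ⟨e₁, s⟩ - ⟨e₂, t⟩ - h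
          simp only [Prod.mk.injEq] at h
          obtain ⟨rfl, h⟩ := h
          have := mul_right_cancel₀ (sub_pos.2 (hiI e₁.1 e₁.2).2).ne' (add_left_cancel h)
          rw [show s = t by linarith]
  refine ⟨D', θ, D.crossings_le hsub,
    fun a k => ⟨Int.fract_nonneg _, Int.fract_lt_one _⟩, hθinj, fun a =>
      ⟨2 * r, by linarith, 1 / 2, ⟨by norm_num, by norm_num⟩, fun k t ht => ?_⟩⟩
  rw [he, hA, hL a k t ht.2]
  rfl

end RDrawing

end Vale.Agent.P040
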