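import Mathlib.Analysis.Normed.Module.Convex
import Mathlib.Topology.Algebra.Affine
import Vale.Agent.P040.Spec

/-!
# Normalisation of relaxed drawings: tools

A new family of paths is a drawing with no more multiple points as soon as, over each point, the
new incidences either form a subsingleton or embed in the old ones.
-/

open Set Filter Metric
open scoped Topology

noncomputable section

namespace Vale.Agent.P040

namespace RDrawing

variable {m n : ℕ} (D : RDrawing m n)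

theorem not_mem_range_of_eq {p : ℂ} {a : Fin m} {i : Fin n} {t : ℝ} (ht : t ∈ Ioo (0 : ℝ) 1)
    (h : D.arc a i t = p) : p ∉ range D.A ∧ p ∉ range D.B :=
  h ▸ D.avoid a i t ht

theorem mem_multPts {p : ℂ} {q₁ q₂ : (Fin m × Fin n) × ℝ} (h₁ : q₁ ∈ incid D.arc p)
    (h₂ : q₂ ∈ incid D.arc p) (h : q₁ ≠ q₂) : p ∈ multPts D.arc :=
  fun hs => h (hs h₁ h₂)

theorem eq_of_not_multPts {p : ℂ} (hp : p ∉ multPts D.arc) {q₁ q₂ : (Fin m × Fin n) × ℝ}
    (h₁ : q₁ ∈ incid D.arc p) (h₂ : q₂ ∈ incid D.arc p) : q₁ = q₂ :=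
  not_not.1 hp h₁ h₂

theorem not_multPts_A (a : Fin m) : D.A a ∉ multPts D.arc := fun h => h fun _q hq _ _ =>
  absurd ⟨a, rfl⟩ (D.not_mem_range_of_eq hq.1 hq.2).1

/-- Build a drawing from paths whose incidences embed in those of `D`. -/
theorem exists_of_embed (arc : Fin m → Fin n → ℝ → ℂ)
    (cont : ∀ a i, ContinuousOn (arc a i) (Icc 0 1)) (src : ∀ a i, arc a i 0 = D.A a)
    (tgt : ∀ a i, arc a i 1 = D.B i)
    (avoid : ∀ a i, ∀ t ∈ Ioo (0 : ℝ) 1, arc a i t ∉ range D.A ∧ arc a i t ∉ range D.B)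
    (emb : ∀ p, (incid arc p).Subsingleton ∨
      ∃ f, MapsTo f (incid arc p) (incid D.arc p) ∧ InjOn f (incid arc p)) :
    ∃ D' : RDrawing m n, D'.A = D.A ∧ D'.arc = arc ∧ multPts D'.arc ⊆ multPts D.arc := by
  have hsub : multPts arc ⊆ multPts D.arc := fun p hp => by
    rcases emb p with h | ⟨f, hf, hi⟩
    · exact absurd h hp
    · exact fun hs => hp fun q₁ h₁ q₂ h₂ => hi h₁ h₂ (hs (hf h₁) (hf h₂))
  refine ⟨⟨D.A, D.B, arc, D.inj, cont, src, tgt, avoid, fun p q₁ h₁ q₂ h₂ q₃ h₃ => ?_,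
    D.fin.subset hsub⟩, rfl, rfl, hsub⟩
  rcases emb p with h | ⟨f, hf, hi⟩
  · exact Or.inl (h h₁ h₂)
  · rcases D.two p _ (hf h₁) _ (hf h₂) _ (hf h₃) with h | h | h
    · exact Or.inl (hi h₁ h₂ h)
    · exact Or.inr (Or.inl (hi h₁ h₃ h))
    · exact Or.inr (Or.inr (hi h₂ h₃ h))

theorem crossings_le {D' : RDrawing m n} (h : multPts D'.arc ⊆ multPts D.arc) :
    D'.crossings ≤ D.crossings :=
  ncard_le_ncard h D.fin

theorem isClosed_image (a : Fin m) (i : Fin n) : IsClosed (D.arc a i '' Icc 0 1) :=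
  (isCompact_Icc.image_of_continuousOn (D.cont a i)).isClosed

theorem mem_image_iff {p : ℂ} (hA : p ∉ range D.A) (hB : p ∉ range D.B) {a : Fin m} {i : Fin n} :
    p ∈ D.arc a i '' Icc 0 1 ↔ ∃ t, ((a, i), t) ∈ incid D.arc p := by
  refine ⟨?_, fun ⟨t, ht, h⟩ => ⟨t, Ioo_subset_Icc_self ht, h⟩⟩
  rintro ⟨t, ht, rfl⟩
  refine ⟨t, ⟨ht.1.lt_of_ne ?_, ht.2.lt_of_ne ?_⟩, rfl⟩
  · rintro rfl; exact hA ⟨a, (D.src a i).symm⟩
  · rintro rfl; exact hB ⟨i, (D.tgt a i).symm⟩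

end RDrawing

theorem eventually_ball_disjoint {p : ℂ} {S : Set ℂ} (hS : IsClosed S) (hp : p ∉ S) :
    ∀ᶠ r in 𝓝[>] (0 : ℝ), ∀ z, dist z p ≤ 2 * r → z ∉ S := by
  obtain ⟨ε, hε, h⟩ := Metric.isOpen_iff.1 hS.isOpen_compl p hp
  filter_upwards [Ioo_mem_nhdsGT (half_pos hε)] with r hr z hz
  exact h (mem_ball.2 (by linarith [hr.2]))

/-! ## First and last times in a ball -/

/-- The first time at which `u` is in the ball. -/
def firstIn (u : ℝ → ℂ) (p : ℂ) (r : ℝ) : ℝ := sInf {t ∈ Icc (0 : ℝ) 1 | dist (u t) p ≤ r}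

/-- The last time at which `u` is in the ball. -/
def lastIn (u : ℝ → ℂ) (p : ℂ) (r : ℝ) : ℝ := sSup {t ∈ Icc (0 : ℝ) 1 | dist (u t) p ≤ r}

theorem continuousOn_dist {u : ℝ → ℂ} (hu : ContinuousOn u (Icc 0 1)) (p : ℂ) :
    ContinuousOn (fun t => dist (u t) p) (Icc 0 1) :=
  continuous_dist.comp_continuousOn (hu.prodMk continuousOn_const)

theorem isCompact_timesIn {u : ℝ → ℂ} (hu : ContinuousOn u (Icc 0 1)) (p : ℂ) (r : ℝ) :
    IsCompact {t ∈ Icc (0 : ℝ) 1 | dist (u t) p ≤ r} :=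
  isCompact_Icc.of_isClosed_subset (isClosed_Icc.isClosed_le
    (continuousOn_dist hu p) continuousOn_const) fun _ h => h.1

theorem lastIn_spec {u : ℝ → ℂ} (hu : ContinuousOn u (Icc 0 1)) {p : ℂ} {r s : ℝ}
    (hs : s ∈ Icc (0 : ℝ) 1) (hsr : dist (u s) p < r) (h1 : r < dist (u 1) p) :
    s < lastIn u p r ∧ lastIn u p r < 1 ∧ dist (u (lastIn u p r)) p = r ∧
      ∀ t ∈ Icc (0 : ℝ) 1, lastIn u p r < t → r < dist (u t) p := by
  set T := {t ∈ Icc (0 : ℝ) 1 | dist (u t) p ≤ r}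
  have hne : T.Nonempty := ⟨s, hs, hsr.le⟩
  have hT := isCompact_timesIn hu p r
  obtain ⟨hm, hmr⟩ : lastIn u p r ∈ T := hT.sSup_mem hne
  have hout : ∀ t ∈ Icc (0 : ℝ) 1, lastIn u p r < t → r < dist (u t) p := fun t ht hlt =>
    not_le.1 fun h => hlt.not_ge (le_csSup hT.bddAbove ⟨ht, h⟩)
  have hlt1 : lastIn u p r < 1 := hm.2.lt_of_ne fun h => by rw [h] at hmr; linarith
  have heq : dist (u (lastIn u p r)) p = r := by
    refine hmr.eq_of_not_lt fun hlt => ?_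
    have hc : ContinuousWithinAt (fun t => dist (u t) p) (Icc 0 1) (lastIn u p r) :=
      (continuousOn_dist hu p) _ hm
    have : ∀ᶠ t in 𝓝[>] lastIn u p r, dist (u t) p < r ∧ t ∈ Ioo (lastIn u p r) 1 := by
      refine Eventually.and ?_ (Ioo_mem_nhdsGT hlt1)
      exact ((hc.mono_of_mem_nhdsWithin (Icc_mem_nhdsGT_of_mem ⟨hm.1, hlt1⟩)).eventually_lt
        continuousWithinAt_const hlt)
    obtain ⟨t, ht, ht'⟩ := this.exists
    exact (hout t ⟨hm.1.trans ht'.1.le, ht'.2.le⟩ ht'.1).not_gt ht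
  refine ⟨lt_of_le_of_ne (le_csSup hT.bddAbove ⟨hs, hsr.le⟩) fun h => ?_, hlt1, heq, hout⟩
  rw [h] at hsr; linarith

theorem firstIn_spec {u : ℝ → ℂ} (hu : ContinuousOn u (Icc 0 1)) {p : ℂ} {r s : ℝ}
    (hs : s ∈ Icc (0 : ℝ) 1) (hsr : dist (u s) p < r) (h0 : r < dist (u 0) p) :
    0 < firstIn u p r ∧ firstIn u p r < s ∧ dist (u (firstIn u p r)) p = r ∧
      ∀ t ∈ Icc (0 : ℝ) 1, t < firstIn u p r → r < dist (u t) p := by
  set T := {t ∈ Icc (0 : ℝ) 1 | dist (u t) p ≤ r}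
  have hne : T.Nonempty := ⟨s, hs, hsr.le⟩
  have hT := isCompact_timesIn hu p r
  obtain ⟨hm, hmr⟩ : firstIn u p r ∈ T := hT.sInf_mem hne
  have hout : ∀ t ∈ Icc (0 : ℝ) 1, t < firstIn u p r → r < dist (u t) p := fun t ht hlt =>
    not_le.1 fun h => hlt.not_ge (csInf_le hT.bddBelow ⟨ht, h⟩)
  have hlt0 : 0 < firstIn u p r := hm.1.lt_of_ne fun h => by rw [← h] at hmr; linarith
  have heq : dist (u (firstIn u p r)) p = r := by
    refine hmr.eq_of_not_lt fun hlt => ?_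
    have hc : ContinuousWithinAt (fun t => dist (u t) p) (Icc 0 1) (firstIn u p r) :=
      (continuousOn_dist hu p) _ hm
    have : ∀ᶠ t in 𝓝[<] firstIn u p r, dist (u t) p < r ∧ t ∈ Ioo 0 (firstIn u p r) := by
      refine Eventually.and ?_ (Ioo_mem_nhdsLT hlt0)
      exact ((hc.mono_of_mem_nhdsWithin (Icc_mem_nhdsLT_of_mem ⟨hlt0, hm.2⟩)).eventually_lt
        continuousWithinAt_const hlt)
    obtain ⟨t, ht, ht'⟩ := this.exists
    exact (hout t ⟨ht'.1.le, ht'.2.le.trans hm.2⟩ ht'.2).not_gt ht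
  refine ⟨hlt0, lt_of_le_of_ne (csInf_le hT.bddBelow ⟨hs, hsr.le⟩) fun h => ?_, heq, hout⟩
  rw [← h] at hsr; linarith

/-! ## Chords -/

/-- Twice the oriented area of a triangle. -/
def area (x y z : ℂ) : ℝ := (y.re - x.re) * (z.im - x.im) - (y.im - x.im) * (z.re - x.re)

theorem area_lineMap (x y u v : ℂ) (s : ℝ) :
    area x y (AffineMap.lineMap u v s) = (1 - s) * area x y u + s * area x y v := by
  simp [area, AffineMap.lineMap_apply_module]
  ring

theorem area_ne_zero {p x y z : ℂ} {r : ℝ} (hx : dist x p = r) (hy : dist y p = r)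
    (hz : dist z p = r) (hxy : x ≠ y) (hxz : x ≠ z) (hyz : y ≠ z) : area x y z ≠ 0 := by
  intro h
  have e : ∀ w : ℂ, dist w p = r → (w.re - p.re) ^ 2 + (w.im - p.im) ^ 2 = r ^ 2 := fun w hw => by
    rw [← hw, Complex.dist_eq, Complex.sq_norm, Complex.normSq_apply]
    simp; ring
  have h1 := e x hx
  have h2 := e y hy
  have h3 := e z hz
  have hdd : 0 < (y.re - x.re) ^ 2 + (y.im - x.im) ^ 2 := by
    have := Complex.normSq_pos.2 (sub_ne_zero.2 (Ne.symm hxy))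
    rw [Complex.normSq_apply] at this; simp at this; nlinarith
  set l := ((z.re - x.re) * (y.re - x.re) + (z.im - x.im) * (y.im - x.im)) /
    ((y.re - x.re) ^ 2 + (y.im - x.im) ^ 2) with hl
  unfold area at h
  have hre : z.re = x.re + l * (y.re - x.re) := by
    rw [hl, ← sub_eq_iff_eq_add', eq_comm, div_mul_eq_mul_div, div_eq_iff hdd.ne']
    linear_combination -(y.im - x.im) * -h
  have him : z.im = x.im + l * (y.im - x.im) := by
    rw [hl, ← sub_eq_iff_eq_add', eq_comm, div_mul_eq_mul_div, div_eq_iff hdd.ne']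
    linear_combination -(y.re - x.re) * h
  rw [hre, him] at h3
  have : l * (l - 1) * ((y.re - x.re) ^ 2 + (y.im - x.im) ^ 2) = 0 := by
    linear_combination h3 - h1 - l * (h2 - h1)
  rcases mul_eq_zero.1 this with h' | h'
  · rcases mul_eq_zero.1 h' with h' | h'
    · exact hxz (Complex.ext (by rw [hre, h']; ring) (by rw [him, h']; ring))
    · exact hyz (Complex.ext (by rw [hre, sub_eq_zero.1 h']; ring)
        (by rw [him, sub_eq_zero.1 h']; ring))
  · linarith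

theorem area_signs_of_meet {a b c d : ℂ} {s t : ℝ} (hs : s ∈ Icc (0 : ℝ) 1)
    (ht : t ∈ Icc (0 : ℝ) 1) (h : AffineMap.lineMap a b s = AffineMap.lineMap c d t)
    (h₁ : area a b c ≠ 0) (h₂ : area a b d ≠ 0) (h₃ : area c d a ≠ 0) (h₄ : area c d b ≠ 0) :
    area a b c * area a b d < 0 ∧ area c d a * area c d b < 0 := by
  have key : ∀ {u v : ℝ} {s : ℝ}, s ∈ Icc (0 : ℝ) 1 → (1 - s) * u + s * v = 0 → u ≠ 0 → v ≠ 0 →
      u * v < 0 := fun {u v s} hs he hu hv => by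
    refine not_le.1 fun h0 => ?_
    rcases hs.1.eq_or_lt with rfl | hs0
    · exact hu (by linarith)
    have : 0 < s * (v * v) := mul_pos hs0 (mul_self_pos.2 hv)
    have he' : (1 - s) * (u * v) + s * (v * v) = 0 := by linear_combination v * he
    linarith [mul_nonneg (sub_nonneg.2 hs.2) h0]
  have hz : ∀ x y : ℂ, area x y x = 0 ∧ area x y y = 0 := fun x y => by
    constructor <;> (unfold area; ring)
  refine ⟨key ht ?_ h₁ h₂, key hs ?_ h₃ h₄⟩
  · rw [← area_lineMap, ← h, area_lineMap, (hz a b).1, (hz a b).2]; ring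
  · rw [← area_lineMap, h, area_lineMap, (hz c d).1, (hz c d).2]; ring

/-- Of the two pairings of starts `x, x'` with ends `y, y'`, one has disjoint chords. -/
theorem chord_pairing {p x x' y y' : ℂ} {r : ℝ} (hx : dist x p = r) (hx' : dist x' p = r)
    (hy : dist y p = r) (hy' : dist y' p = r) (h1 : x ≠ x') (h2 : x ≠ y) (h3 : x ≠ y')
    (h4 : x' ≠ y) (h5 : x' ≠ y') (h6 : y ≠ y') :
    (∀ s ∈ Icc (0 : ℝ) 1, ∀ t ∈ Icc (0 : ℝ) 1,
      AffineMap.lineMap x y s ≠ AffineMap.lineMap x' y' t) ∨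
    ∀ s ∈ Icc (0 : ℝ) 1, ∀ t ∈ Icc (0 : ℝ) 1,
      AffineMap.lineMap x' y s ≠ AffineMap.lineMap x y' t := by
  by_contra hcon
  rw [not_or] at hcon
  obtain ⟨hA, hB⟩ := hcon
  push Not at hA hB
  obtain ⟨s, hs, t, ht, hA⟩ := hA
  obtain ⟨s', hs', t', ht', hB⟩ := hB
  obtain ⟨a1, a2⟩ := area_signs_of_meet hs ht hA (area_ne_zero hx hy hx' h2 h1 h4.symm)
    (area_ne_zero hx hy hy' h2 h3 h6) (area_ne_zero hx' hy' hx h5 h1.symm h3.symm)
    (area_ne_zero hx' hy' hy h5 h4 h6.symm)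
  obtain ⟨b1, b2⟩ := area_signs_of_meet hs' ht' hB (area_ne_zero hx' hy hx h4 h1.symm h2.symm)
    (area_ne_zero hx' hy hy' h4 h5 h6) (area_ne_zero hx hy' hx' h3 h1 h5.symm)
    (area_ne_zero hx hy' hy h3 h2 h6.symm)
  have e1 : area x' y x = -area x y x' := by unfold area; ring
  have e2 : area x' y y' = -area x' y' y := by unfold area; ring
  have e3 : area x y' x' = -area x' y' x * -1 * -1 := by unfold area; ring
  have e4 : area x y' y = -area x y y' := by unfold area; ring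
  have e5 : area x y x' - area x y y' + area x' y' x - area x' y' y = 0 := by unfold area; ring
  rw [e1, e2] at b1
  rw [e3, e4] at b2
  rcases mul_neg_iff.1 a1 with ⟨g1, g2⟩ | ⟨g1, g2⟩ <;>
    rcases mul_neg_iff.1 a2 with ⟨g3, g4⟩ | ⟨g3, g4⟩ <;>
    first | linarith | nlinarith

end Vale.Agent.P040
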