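import Vale.Agent.P040.Normalise.Basic

/-!
# Removing a common point of two adjacent edges
-/

open Set Filter Metric
open scoped Topology

noncomputable section

namespace Vale.Agent.P040

/-- Follow `u` up to time `s₁`, then a segment, then `v` from time `s₂`. -/
def splice (u v : ℝ → ℂ) (s₁ s₂ t : ℝ) : ℂ :=
  if t ≤ 1 / 3 then u (3 * t * s₁)
  else if t ≤ 2 / 3 then AffineMap.lineMap (u s₁) (v s₂) (3 * t - 1)
  else v (s₂ + (3 * t - 2) * (1 - s₂))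

variable {u v : ℝ → ℂ} {s₁ s₂ : ℝ}

theorem splice_left {t : ℝ} (h : t < 1 / 3) : splice u v s₁ s₂ t = u (3 * t * s₁) := if_pos h.le

theorem splice_mid {t : ℝ} (h : t ∈ Icc (1 / 3 : ℝ) (2 / 3)) :
    splice u v s₁ s₂ t = AffineMap.lineMap (u s₁) (v s₂) (3 * t - 1) := by
  unfold splice
  rcases h.1.eq_or_lt with rfl | h1
  · norm_num
  · rw [if_neg h1.not_ge, if_pos h.2]

theorem splice_right {t : ℝ} (h : 2 / 3 < t) :
    splice u v s₁ s₂ t = v (s₂ + (3 * t - 2) * (1 - s₂)) := by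
  unfold splice
  rw [if_neg (by linarith), if_neg (by linarith)]

theorem splice_zero : splice u v s₁ s₂ 0 = u 0 := by rw [splice_left (by norm_num)]; simp

theorem splice_one : splice u v s₁ s₂ 1 = v 1 := by rw [splice_right (by norm_num)]; norm_num

theorem continuousOn_splice (hu : ContinuousOn u (Icc 0 1)) (hv : ContinuousOn v (Icc 0 1))
    (h₁ : s₁ ∈ Icc (0 : ℝ) 1) (h₂ : s₂ ∈ Icc (0 : ℝ) 1) :
    ContinuousOn (splice u v s₁ s₂) (Icc 0 1) := by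
  have hunion : Icc (0 : ℝ) 1 = Icc 0 (1 / 3) ∪ (Icc (1 / 3) (2 / 3) ∪ Icc (2 / 3) 1) := by
    rw [Icc_union_Icc_eq_Icc, Icc_union_Icc_eq_Icc] <;> norm_num
  have c1 : ContinuousOn (splice u v s₁ s₂) (Icc 0 (1 / 3)) := by
    refine (hu.comp (by fun_prop : Continuous fun t : ℝ => 3 * t * s₁).continuousOn
      fun t ht => ?_).congr fun t ht => ?_
    · exact ⟨mul_nonneg (by linarith [ht.1]) h₁.1,
        mul_le_one₀ (by linarith [ht.2]) h₁.1 h₁.2⟩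
    · rcases ht.2.eq_or_lt with rfl | h
      · rw [splice_mid ⟨le_rfl, by norm_num⟩]; simp
      · exact splice_left h
  have c2 : ContinuousOn (splice u v s₁ s₂) (Icc (1 / 3) (2 / 3)) :=
    (AffineMap.lineMap_continuous.comp (by fun_prop : Continuous fun t : ℝ => 3 * t - 1)).continuousOn.congr
      fun t ht => splice_mid ht
  have c3 : ContinuousOn (splice u v s₁ s₂) (Icc (2 / 3) 1) := by
    refine (hv.comp (by fun_prop : Continuous fun t : ℝ => s₂ + (3 * t - 2) * (1 - s₂)).continuousOn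
      fun t ht => ?_).congr fun t ht => ?_
    · exact ⟨by nlinarith [mul_nonneg (by linarith [ht.1] : (0:ℝ) ≤ 3 * t - 2) (sub_nonneg.2 h₂.2), h₂.1],
        by nlinarith [mul_nonneg (by linarith [ht.2] : (0:ℝ) ≤ 1 - (3 * t - 2)) (sub_nonneg.2 h₂.2)]⟩
    · rcases ht.1.eq_or_lt with rfl | h
      · rw [splice_mid ⟨by norm_num, le_rfl⟩]; norm_num
      · exact splice_right h
  rw [hunion]
  exact c1.union_of_isClosed (c2.union_of_isClosed c3 isClosed_Icc isClosed_Icc) isClosed_Icc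
    (isClosed_Icc.union isClosed_Icc)

namespace RDrawing

variable {m n : ℕ} (D : RDrawing m n)

/-- Data for rerouting inside a ball around a multiple point of two adjacent edges. -/
structure Patch (a : Fin m) (i j : Fin n) where
  /-- The centre. -/
  p : ℂ
  /-- The radius. -/
  r : ℝ
  /-- Entrance times. -/
  lo : Fin n → ℝ
  /-- Exit times. -/
  hi : Fin n → ℝ
  /-- Which start goes to which end. -/
  σ : Equiv.Perm (Fin n)
  hp : p ∈ multPts D.arc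
  hr : 0 < r
  hσ : ∀ k, k = i ∨ k = j → σ k = i ∨ σ k = j
  vert : ∀ z, dist z p ≤ r → z ∉ range D.A ∧ z ∉ range D.B
  other : ∀ a' k, ¬ (a' = a ∧ (k = i ∨ k = j)) → ∀ t ∈ Icc (0 : ℝ) 1, r < dist (D.arc a' k t) p
  lo_pos : ∀ k, k = i ∨ k = j → 0 < lo k
  lo_hi : ∀ k, k = i ∨ k = j → lo k < hi k
  hi_lt : ∀ k, k = i ∨ k = j → hi k < 1
  d_lo : ∀ k, k = i ∨ k = j → dist (D.arc a k (lo k)) p = r
  d_hi : ∀ k, k = i ∨ k = j → dist (D.arc a k (hi k)) p = r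
  out : ∀ k, k = i ∨ k = j → ∀ t ∈ Icc (0 : ℝ) 1, t < lo k ∨ hi k < t → r < dist (D.arc a k t) p
  ne : ∀ k, k = i ∨ k = j → D.arc a (σ k) (lo (σ k)) ≠ D.arc a k (hi k)
  disj : ∀ k l, (k = i ∨ k = j) → (l = i ∨ l = j) → k ≠ l → ∀ s ∈ Icc (0 : ℝ) 1,
    ∀ t ∈ Icc (0 : ℝ) 1, AffineMap.lineMap (D.arc a (σ k) (lo (σ k))) (D.arc a k (hi k)) s ≠
      AffineMap.lineMap (D.arc a (σ l) (lo (σ l))) (D.arc a l (hi l)) t

variable {D} {a : Fin m} {i j : Fin n}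

/-- The rerouted edges. -/
def Patch.arc (P : D.Patch a i j) (a' : Fin m) (k : Fin n) : ℝ → ℂ :=
  if a' = a ∧ (k = i ∨ k = j) then
    splice (D.arc a (P.σ k)) (D.arc a k) (P.lo (P.σ k)) (P.hi k)
  else D.arc a' k

theorem Patch.mid_subsingleton (P : D.Patch a i j) {k l : Fin n} {s t : ℝ} (hk : k = i ∨ k = j)
    (hl : l = i ∨ l = j) (hs : s ∈ Icc (1 / 3 : ℝ) (2 / 3)) (ht : t ∈ Icc (1 / 3 : ℝ) (2 / 3))
    (h : P.arc a k s = P.arc a l t) : (((a, k), s) : (Fin m × Fin n) × ℝ) = ((a, l), t) := by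
  rw [Patch.arc, Patch.arc, if_pos ⟨rfl, hk⟩, if_pos ⟨rfl, hl⟩, splice_mid hs, splice_mid ht] at h
  have hs' : 3 * s - 1 ∈ Icc (0 : ℝ) 1 := ⟨by linarith [hs.1], by linarith [hs.2]⟩
  have ht' : 3 * t - 1 ∈ Icc (0 : ℝ) 1 := ⟨by linarith [ht.1], by linarith [ht.2]⟩
  obtain rfl : k = l := by_contra fun hne => P.disj k l hk hl hne _ hs' _ ht' h
  have := AffineMap.lineMap_injective ℝ (P.ne k hk) h
  rw [show s = t by linarith]

theorem Patch.f_injOn (P : D.Patch a i j) {q₁ q₂ : (Fin m × Fin n) × ℝ}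
    (h₁ : ¬ ((q₁.1.1 = a ∧ (q₁.1.2 = i ∨ q₁.1.2 = j)) ∧ q₁.2 ∈ Icc (1 / 3 : ℝ) (2 / 3)))
    (h₂ : ¬ ((q₂.1.1 = a ∧ (q₂.1.2 = i ∨ q₂.1.2 = j)) ∧ q₂.2 ∈ Icc (1 / 3 : ℝ) (2 / 3)))
    (he : (if q₁.1.1 = a ∧ (q₁.1.2 = i ∨ q₁.1.2 = j) then
      (if q₁.2 < 1 / 3 then ((a, P.σ q₁.1.2), 3 * q₁.2 * P.lo (P.σ q₁.1.2))
      else ((a, q₁.1.2), P.hi q₁.1.2 + (3 * q₁.2 - 2) * (1 - P.hi q₁.1.2))) else q₁) =
      (if q₂.1.1 = a ∧ (q₂.1.2 = i ∨ q₂.1.2 = j) then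
      (if q₂.2 < 1 / 3 then ((a, P.σ q₂.1.2), 3 * q₂.2 * P.lo (P.σ q₂.1.2))
      else ((a, q₂.1.2), P.hi q₂.1.2 + (3 * q₂.2 - 2) * (1 - P.hi q₂.1.2))) else q₂)) :
    q₁ = q₂ := by
  obtain ⟨⟨a₁, k⟩, s⟩ := q₁
  obtain ⟨⟨a₂, l⟩, t⟩ := q₂
  simp only at h₁ h₂ he
  have hright : ∀ {k : Fin n} {t : ℝ}, (k = i ∨ k = j) → ¬ t < 1 / 3 →
      ¬ ((a = a ∧ (k = i ∨ k = j)) ∧ t ∈ Icc (1 / 3 : ℝ) (2 / 3)) →
        P.hi k < P.hi k + (3 * t - 2) * (1 - P.hi k) := fun {k t} hk h hn => by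
    have : 2 / 3 < t := not_le.1 fun h' => hn ⟨⟨rfl, hk⟩, not_lt.1 h, h'⟩
    linarith [mul_pos (by linarith : (0:ℝ) < 3 * t - 2) (sub_pos.2 (P.hi_lt k hk))]
  have hleft : ∀ {k : Fin n} {t : ℝ}, (k = i ∨ k = j) → t < 1 / 3 →
        3 * t * P.lo k < P.lo k := fun {k t} hk h =>
    mul_lt_of_lt_one_left (P.lo_pos k hk) (by linarith)
  by_cases k₁ : a₁ = a ∧ (k = i ∨ k = j) <;> by_cases k₂ : a₂ = a ∧ (l = i ∨ l = j)
  · rw [if_pos k₁, if_pos k₂] at he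
    obtain ⟨rfl, hk⟩ := k₁
    obtain ⟨rfl, hl⟩ := k₂
    split_ifs at he with c₁ c₂ c₂ <;> simp only [Prod.mk.injEq, true_and] at he
    · obtain ⟨hkl, he⟩ := he
      obtain rfl := P.σ.injective hkl
      rw [mul_left_inj' (P.lo_pos _ (P.hσ k hk)).ne'] at he
      rw [show s = t by linarith]
    · obtain ⟨hkl, he⟩ := he
      subst hkl
      linarith [hleft (P.hσ k hk) c₁, P.lo_hi _ (P.hσ k hk), hright hl c₂ h₂]
    · obtain ⟨hkl, he⟩ := he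
      subst hkl
      linarith [hleft (P.hσ l hl) c₂, P.lo_hi _ (P.hσ l hl), hright hk c₁ h₁]
    · obtain ⟨rfl, he⟩ := he
      have h := mul_right_cancel₀ (sub_pos.2 (P.hi_lt k hk)).ne' (add_left_cancel he)
      rw [show s = t by linarith]
  · rw [if_pos k₁, if_neg k₂] at he
    refine absurd ?_ k₂
    split_ifs at he <;> simp only [Prod.mk.injEq] at he <;> obtain ⟨⟨rfl, rfl⟩, -⟩ := he
    exacts [⟨rfl, P.hσ k k₁.2⟩, ⟨rfl, k₁.2⟩]
  · rw [if_neg k₁, if_pos k₂] at he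
    refine absurd ?_ k₁
    split_ifs at he <;> simp only [Prod.mk.injEq] at he <;> obtain ⟨⟨rfl, rfl⟩, -⟩ := he
    exacts [⟨rfl, P.hσ l k₂.2⟩, ⟨rfl, k₂.2⟩]
  · rwa [if_neg k₁, if_neg k₂] at he

theorem Patch.exists_fewer (P : D.Patch a i j) :
    ∃ D' : RDrawing m n, D'.crossings < D.crossings := by
  classical
  -- the middle parts lie in the ball
  have hmid : ∀ k, (k = i ∨ k = j) → ∀ t ∈ Icc (1 / 3 : ℝ) (2 / 3),
      dist (P.arc a k t) P.p ≤ P.r := fun k hk t ht => by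
    rw [Patch.arc, if_pos ⟨rfl, hk⟩, splice_mid ht]
    exact mem_closedBall.1 ((convex_closedBall P.p P.r).segment_subset
      (mem_closedBall.2 (P.d_lo _ (P.hσ k hk)).le) (mem_closedBall.2 (P.d_hi k hk).le)
      (segment_eq_image_lineMap ℝ (D.arc a (P.σ k) (P.lo (P.σ k))) (D.arc a k (P.hi k)) ▸
        mem_image_of_mem _ (⟨by linarith [ht.1], by linarith [ht.2]⟩ : 3 * t - 1 ∈ Icc (0:ℝ) 1)))
  -- the other parts are old and outside the ball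
  set f : (Fin m × Fin n) × ℝ → (Fin m × Fin n) × ℝ := fun q =>
    if q.1.1 = a ∧ (q.1.2 = i ∨ q.1.2 = j) then
      (if q.2 < 1 / 3 then ((a, P.σ q.1.2), 3 * q.2 * P.lo (P.σ q.1.2))
      else ((a, q.1.2), P.hi q.1.2 + (3 * q.2 - 2) * (1 - P.hi q.1.2)))
    else q with hf
  have hold : ∀ a' k, ∀ t ∈ Ioo (0 : ℝ) 1,
      ¬ ((a' = a ∧ (k = i ∨ k = j)) ∧ t ∈ Icc (1 / 3 : ℝ) (2 / 3)) →
        (f ((a', k), t)).2 ∈ Ioo (0 : ℝ) 1 ∧
        D.arc (f ((a', k), t)).1.1 (f ((a', k), t)).1.2 (f ((a', k), t)).2 = P.arc a' k t ∧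
        P.r < dist (P.arc a' k t) P.p := fun a' k t ht hnm => by
    by_cases hk : a' = a ∧ (k = i ∨ k = j)
    · obtain ⟨rfl, hk⟩ := hk
      have hσ := P.hσ k hk
      rw [Patch.arc, if_pos ⟨rfl, hk⟩]
      simp only [hf, hk, and_self, if_true]
      by_cases h1 : t < 1 / 3
      · have hb : 3 * t * P.lo (P.σ k) < P.lo (P.σ k) :=
          mul_lt_of_lt_one_left (P.lo_pos _ hσ) (by linarith)
        have hI : 3 * t * P.lo (P.σ k) ∈ Ioo (0 : ℝ) 1 :=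
          ⟨mul_pos (by linarith [ht.1]) (P.lo_pos _ hσ),
            hb.trans ((P.lo_hi _ hσ).trans (P.hi_lt _ hσ))⟩
        simp only [if_pos h1, splice_left h1]
        exact ⟨hI, trivial, P.out _ hσ _ (Ioo_subset_Icc_self hI) (Or.inl hb)⟩
      · have h2 : 2 / 3 < t := not_le.1 fun h => hnm ⟨⟨rfl, hk⟩, not_lt.1 h1, h⟩
        have hw : 0 < (3 * t - 2) * (1 - P.hi k) :=
          mul_pos (by linarith) (by linarith [P.hi_lt k hk])
        have hw' : (3 * t - 2) * (1 - P.hi k) < 1 - P.hi k :=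
          mul_lt_of_lt_one_left (by linarith [P.hi_lt k hk]) (by linarith [ht.2])
        have hI : P.hi k + (3 * t - 2) * (1 - P.hi k) ∈ Ioo (0 : ℝ) 1 :=
          ⟨by linarith [P.lo_pos k hk, P.lo_hi k hk], by linarith⟩
        simp only [if_neg h1, splice_right h2]
        exact ⟨hI, trivial, P.out _ hk _ (Ioo_subset_Icc_self hI) (Or.inr (by linarith))⟩
    · rw [Patch.arc, if_neg hk]
      simp only [hf, if_neg hk]
      exact ⟨ht, trivial, P.other a' k hk t (Ioo_subset_Icc_self ht)⟩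
  suffices hd : (∀ a' k, ContinuousOn (P.arc a' k) (Icc 0 1)) ∧ (∀ a' k, P.arc a' k 0 = D.A a') ∧
      (∀ a' k, P.arc a' k 1 = D.B k) ∧
      (∀ a' k, ∀ t ∈ Ioo (0 : ℝ) 1, P.arc a' k t ∉ range D.A ∧ P.arc a' k t ∉ range D.B) ∧
      ∀ p, (incid P.arc p).Subsingleton ∨
        ∃ f, MapsTo f (incid P.arc p) (incid D.arc p) ∧ InjOn f (incid P.arc p) by
    obtain ⟨D', -, harc, hsub⟩ := D.exists_of_embed P.arc hd.1 hd.2.1 hd.2.2.1 hd.2.2.2.1 hd.2.2.2.2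
    refine ⟨D', lt_of_lt_of_le (ncard_lt_ncard ⟨hsub, fun h => ?_⟩ D.fin) le_rfl⟩
    -- the centre is no longer a multiple point
    have hP := h P.hp
    rw [harc] at hP
    refine hP fun q₁ h₁ q₂ h₂ => ?_
    have hin : ∀ q ∈ incid P.arc P.p, (q.1.1 = a ∧ (q.1.2 = i ∨ q.1.2 = j)) ∧
        q.2 ∈ Icc (1 / 3 : ℝ) (2 / 3) := fun q hq => by
      by_contra hn
      have := (hold q.1.1 q.1.2 q.2 hq.1 hn).2.2
      rw [hq.2, dist_self] at this
      exact this.not_gt P.hr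
    obtain ⟨⟨a₁, k⟩, t₁⟩ := q₁
    obtain ⟨⟨a₂, l⟩, t₂⟩ := q₂
    obtain ⟨⟨rfl, hk⟩, ht₁⟩ := hin _ h₁
    obtain ⟨⟨ha₂, hl⟩, ht₂⟩ := hin _ h₂
    simp only at ha₂
    subst ha₂
    exact P.mid_subsingleton hk hl ht₁ ht₂ (h₁.2.trans h₂.2.symm)
  refine ⟨fun a' k => ?_, fun a' k => ?_, fun a' k => ?_, fun a' k t ht => ?_, fun p => ?_⟩
  · by_cases hk : a' = a ∧ (k = i ∨ k = j)
    · rw [Patch.arc, if_pos hk]
      exact continuousOn_splice (D.cont _ _) (D.cont _ _)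
        ⟨(P.lo_pos _ (P.hσ k hk.2)).le, ((P.lo_hi _ (P.hσ k hk.2)).trans (P.hi_lt _ (P.hσ k hk.2))).le⟩
        ⟨((P.lo_pos k hk.2).trans (P.lo_hi k hk.2)).le, (P.hi_lt k hk.2).le⟩
    · rw [Patch.arc, if_neg hk]; exact D.cont _ _
  · by_cases hk : a' = a ∧ (k = i ∨ k = j)
    · rw [Patch.arc, if_pos hk, splice_zero, D.src, hk.1]
    · rw [Patch.arc, if_neg hk, D.src]
  · by_cases hk : a' = a ∧ (k = i ∨ k = j)
    · rw [Patch.arc, if_pos hk, splice_one, D.tgt]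
    · rw [Patch.arc, if_neg hk, D.tgt]
  · by_cases hm : (a' = a ∧ (k = i ∨ k = j)) ∧ t ∈ Icc (1 / 3 : ℝ) (2 / 3)
    · obtain ⟨⟨rfl, hk⟩, htm⟩ := hm
      exact P.vert _ (hmid k hk t htm)
    · obtain ⟨hI, he, -⟩ := hold a' k t ht hm
      rw [← he]
      exact D.avoid _ _ _ hI
  · by_cases hb : dist p P.p ≤ P.r
    · left
      have hin : ∀ q ∈ incid P.arc p, (q.1.1 = a ∧ (q.1.2 = i ∨ q.1.2 = j)) ∧
          q.2 ∈ Icc (1 / 3 : ℝ) (2 / 3) := fun q hq => by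
        by_contra hn
        have := (hold q.1.1 q.1.2 q.2 hq.1 hn).2.2
        rw [hq.2] at this
        exact hb.not_gt this
      rintro ⟨⟨a₁, k⟩, t₁⟩ h₁ ⟨⟨a₂, l⟩, t₂⟩ h₂
      obtain ⟨⟨ha₁, hk⟩, ht₁⟩ := hin _ h₁
      obtain ⟨⟨ha₂, hl⟩, ht₂⟩ := hin _ h₂
      simp only at ha₁ ha₂
      subst ha₁ ha₂
      exact P.mid_subsingleton hk hl ht₁ ht₂ (h₁.2.trans h₂.2.symm)
    · right
      have hnm : ∀ q ∈ incid P.arc p,
          ¬ ((q.1.1 = a ∧ (q.1.2 = i ∨ q.1.2 = j)) ∧ q.2 ∈ Icc (1 / 3 : ℝ) (2 / 3)) :=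
        fun ⟨⟨a', k⟩, t⟩ hq ⟨⟨ha, hk⟩, ht⟩ => hb (by
          simp only at ha; subst ha
          rw [← hq.2]; exact hmid k hk t ht)
      refine ⟨f, fun q hq => ?_, fun q₁ h₁ q₂ h₂ he => ?_⟩
      · obtain ⟨hI, he, -⟩ := hold q.1.1 q.1.2 q.2 hq.1 (hnm q hq)
        exact ⟨hI, he.trans hq.2⟩
      · exact P.f_injOn (hnm q₁ h₁) (hnm q₂ h₂) he

/-- A common interior point of two adjacent edges can be removed. -/
theorem exists_fewer_of_adjacent (D : RDrawing m n) (hij : i ≠ j) {s t : ℝ}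
    (hs : s ∈ Ioo (0 : ℝ) 1) (ht : t ∈ Ioo (0 : ℝ) 1) (h : D.arc a i s = D.arc a j t) :
    ∃ D' : RDrawing m n, D'.crossings < D.crossings := by
  classical
  set p := D.arc a i s with hp
  have hinc : ((a, i), s) ∈ incid D.arc p ∧ ((a, j), t) ∈ incid D.arc p :=
    ⟨⟨hs, rfl⟩, ⟨ht, h.symm⟩⟩
  have hpm : p ∈ multPts D.arc := D.mem_multPts hinc.1 hinc.2 (by simp [hij])
  obtain ⟨hpA, hpB⟩ := D.avoid a i s hs
  set K : Set ℂ := range D.A ∪ range D.B ∪ multPts D.arc \ {p} ∪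
    ⋃ e : {e : Fin m × Fin n // ¬ (e.1 = a ∧ (e.2 = i ∨ e.2 = j))},
      D.arc e.1.1 e.1.2 '' Icc 0 1 with hK
  have hKc : IsClosed K := ((((finite_range _).union (finite_range _)).union D.fin.sdiff).isClosed).union
    (isClosed_iUnion_of_finite fun e => D.isClosed_image _ _)
  have hpK : p ∉ K := by
    rintro (((hh | hh) | hh) | hh)
    · exact hpA hh
    · exact hpB hh
    · exact hh.2 rfl
    · obtain ⟨⟨⟨a', k⟩, he⟩, hk⟩ := mem_iUnion.1 hh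
      obtain ⟨u, hu⟩ := (D.mem_image_iff hpA hpB).1 hk
      rcases D.two p _ hinc.1 _ hinc.2 _ hu with h' | h' | h'
      · simp [hij] at h'
      · simp only [Prod.mk.injEq] at h'; exact he ⟨h'.1.1.symm, Or.inl h'.1.2.symm⟩
      · simp only [Prod.mk.injEq] at h'; exact he ⟨h'.1.1.symm, Or.inr h'.1.2.symm⟩
  obtain ⟨r, hr, hr0⟩ := ((eventually_ball_disjoint hKc hpK).and self_mem_nhdsWithin).exists
  have hr0 : (0 : ℝ) < r := hr0
  have hb : ∀ z, dist z p ≤ r → z ∉ K := fun z hz => hr z (by linarith)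
  have hvert : ∀ z, dist z p ≤ r → z ∉ range D.A ∧ z ∉ range D.B := fun z hz =>
    ⟨fun h' => hb z hz (Or.inl (Or.inl (Or.inl h'))), fun h' => hb z hz (Or.inl (Or.inl (Or.inr h')))⟩
  have hs0 : dist (D.arc a i s) p < r := by rw [← hp, dist_self]; exact hr0
  have ht0 : dist (D.arc a j t) p < r := by rw [← h, dist_self]; exact hr0
  have hend : ∀ k, r < dist (D.arc a k 0) p ∧ r < dist (D.arc a k 1) p := fun k =>
    ⟨not_le.1 fun h' => (hvert _ h').1 ⟨a, (D.src a k).symm⟩,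
      not_le.1 fun h' => (hvert _ h').2 ⟨k, (D.tgt a k).symm⟩⟩
  set lo : Fin n → ℝ := fun k => firstIn (D.arc a k) p r with hlo
  set hi : Fin n → ℝ := fun k => lastIn (D.arc a k) p r with hhi
  have key : ∀ k, k = i ∨ k = j → 0 < lo k ∧ lo k < hi k ∧ hi k < 1 ∧
      dist (D.arc a k (lo k)) p = r ∧ dist (D.arc a k (hi k)) p = r ∧
      ∀ u ∈ Icc (0 : ℝ) 1, u < lo k ∨ hi k < u → r < dist (D.arc a k u) p := fun k hk => by
    obtain ⟨v, hv, hv'⟩ : ∃ v ∈ Icc (0 : ℝ) 1, dist (D.arc a k v) p < r := by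
      rcases hk with rfl | rfl
      exacts [⟨s, Ioo_subset_Icc_self hs, hs0⟩, ⟨t, Ioo_subset_Icc_self ht, ht0⟩]
    obtain ⟨a1, a2, a3, a4⟩ := firstIn_spec (D.cont a k) hv hv' (hend k).1
    obtain ⟨b1, b2, b3, b4⟩ := lastIn_spec (D.cont a k) hv hv' (hend k).2
    exact ⟨a1, a2.trans b1, b2, a3, b3, fun u hu h' => h'.elim (a4 u hu) (b4 u hu)⟩
  have hki : i = i ∨ i = j := Or.inl rfl
  have hkj : j = i ∨ j = j := Or.inr rfl
  obtain ⟨i1, i2, i3, i4, i5, -⟩ := key i hki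
  obtain ⟨j1, j2, j3, j4, j5, -⟩ := key j hkj
  have hdist : ∀ k l u v, dist (D.arc a k u) p = r → u ∈ Ioo (0 : ℝ) 1 → v ∈ Ioo (0 : ℝ) 1 →
      ((k, u) : Fin n × ℝ) ≠ (l, v) → D.arc a k u ≠ D.arc a l v := fun k l u v hd hu hv hne he => by
    have hm : D.arc a k u ∈ multPts D.arc :=
      D.mem_multPts (q₁ := ((a, k), u)) (q₂ := ((a, l), v)) ⟨hu, rfl⟩ ⟨hv, he.symm⟩ fun e => hne (by
        simp only [Prod.mk.injEq, true_and] at e ⊢; exact e)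
    refine hb _ hd.le (Or.inl (Or.inr ⟨hm, fun e => ?_⟩))
    rw [mem_singleton_iff.1 e, dist_self] at hd
    exact hr0.ne hd
  have iI : lo i ∈ Ioo (0 : ℝ) 1 ∧ hi i ∈ Ioo (0 : ℝ) 1 := ⟨⟨i1, i2.trans i3⟩, ⟨i1.trans i2, i3⟩⟩
  have jI : lo j ∈ Ioo (0 : ℝ) 1 ∧ hi j ∈ Ioo (0 : ℝ) 1 := ⟨⟨j1, j2.trans j3⟩, ⟨j1.trans j2, j3⟩⟩
  have n1 := hdist i j _ _ i4 iI.1 jI.1 (by simp [hij])
  have n2 := hdist i i _ _ i4 iI.1 iI.2 (by simp [i2.ne])
  have n3 := hdist i j _ _ i4 iI.1 jI.2 (by simp [hij])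
  have n4 := hdist j i _ _ j4 jI.1 iI.2 (by simp [hij.symm])
  have n5 := hdist j j _ _ j4 jI.1 jI.2 (by simp [j2.ne])
  have n6 := hdist i j _ _ i5 iI.2 jI.2 (by simp [hij])
  have mk : ∀ σ : Equiv.Perm (Fin n), (∀ k, k = i ∨ k = j → σ k = i ∨ σ k = j) →
      (∀ u ∈ Icc (0 : ℝ) 1, ∀ v ∈ Icc (0 : ℝ) 1,
        AffineMap.lineMap (D.arc a (σ i) (lo (σ i))) (D.arc a i (hi i)) u ≠
          AffineMap.lineMap (D.arc a (σ j) (lo (σ j))) (D.arc a j (hi j)) v) →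
      (∀ k, k = i ∨ k = j → D.arc a (σ k) (lo (σ k)) ≠ D.arc a k (hi k)) →
      ∃ D' : RDrawing m n, D'.crossings < D.crossings := fun σ hσ hd hne =>
    Patch.exists_fewer (D := D) (a := a) (i := i) (j := j)
      { p := p, r := r, lo := lo, hi := hi, σ := σ, hp := hpm, hr := hr0, hσ := hσ, vert := hvert
        other := fun a' k he u hu => not_le.1 fun h' =>
          hb _ h' (Or.inr (mem_iUnion.2 ⟨⟨(a', k), he⟩, mem_image_of_mem _ hu⟩))
        lo_pos := fun k hk => (key k hk).1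
        lo_hi := fun k hk => (key k hk).2.1
        hi_lt := fun k hk => (key k hk).2.2.1
        d_lo := fun k hk => (key k hk).2.2.2.1
        d_hi := fun k hk => (key k hk).2.2.2.2.1
        out := fun k hk => (key k hk).2.2.2.2.2
        ne := hne
        disj := fun k l hk hl hkl u hu v hv => by
          rcases hk with rfl | rfl <;> rcases hl with rfl | rfl
          · exact absurd rfl hkl
          · exact hd u hu v hv
          · exact (hd v hv u hu).symm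
          · exact absurd rfl hkl }
  rcases chord_pairing i4 j4 i5 j5 n1 n2 n3 n4 n5 n6 with hc | hc
  · refine mk (Equiv.refl _) (fun k hk => hk) hc fun k hk => ?_
    rcases hk with rfl | rfl
    exacts [n2, n5]
  · refine mk (Equiv.swap i j) (fun k hk => ?_) ?_ fun k hk => ?_
    · rcases hk with rfl | rfl <;> simp
    · simpa using hc
    · rcases hk with rfl | rfl <;> simp [n3, n4]

end RDrawing

end Vale.Agent.P040
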